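import Mathlib

/-!
# Erdős's conjecture on progressions for sets with nondecreasing gaps

Let `a 0 < a 1 < a 2 < ...` be positive integers whose consecutive gaps are nondecreasing,
`a (n+1) - a n ≤ a (n+2) - a (n+1)` for all `n`.

* Quantitative form: if `c ≥ 1` and `2 c (a N - a 0) < N (N + 1)` for some `N`, then some
  `c + 2` consecutive terms among `a 0, ..., a N` form an arithmetic progression.
* If the sum of the reciprocals `1 / a n` diverges, then for every `k` some `k` consecutive
  terms `a n, a (n+1), ..., a (n+k-1)` form an arithmetic progression with positive common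
  difference; in particular the set of the `a n` contains a `k`-term arithmetic progression.
-/

namespace Vale.Agent.Results.P057.A_ConvexSequences

/-- The finite counting step: if no `c + 2` consecutive terms among `a 0, ..., a N` are in
arithmetic progression, then `N (N + 1) ≤ 2 c (a N - a 0)`. -/
theorem growth (a : ℕ → ℕ) (hmono : StrictMono a)
    (hconv : ∀ n, a (n + 1) - a n ≤ a (n + 2) - a (n + 1)) (c N : ℕ) (hc : 1 ≤ c)
    (hno : ∀ n d, 0 < d → n + c + 1 ≤ N → ∃ i < c + 2, a (n + i) ≠ a n + i * d) :
    2 * c * a 0 + N * (N + 1) ≤ 2 * c * a N := by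
  obtain ⟨g, hg⟩ : ∃ g : ℕ → ℕ, ∀ n, g n = a (n + 1) - a n :=
    ⟨fun n => a (n + 1) - a n, fun _ => rfl⟩
  have hlt : ∀ n, a n < a (n + 1) := fun n => hmono (Nat.lt_succ_self n)
  have hg1 : ∀ n, 1 ≤ g n := fun n => by
    have := hlt n
    rw [hg n]; omega
  have hgm : Monotone g := monotone_nat_of_le_succ (fun n => by
    rw [hg n, hg (n + 1)]; exact hconv n)
  have ha : ∀ n, a (n + 1) = a n + g n := fun n => by
    have := hlt n
    rw [hg n]; omega
  -- no gap value survives `c` steps
  have hA : ∀ n, n + c + 1 ≤ N → g n < g (n + c) := by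
    intro n hn
    by_contra hcon
    push Not at hcon
    have heq : ∀ j, j ≤ c → g (n + j) = g n := by
      intro j hj
      have h1 : g n ≤ g (n + j) := hgm (Nat.le_add_right n j)
      have h2 : g (n + j) ≤ g (n + c) := hgm (by omega)
      omega
    have hap : ∀ i, i ≤ c + 1 → a (n + i) = a n + i * g n := by
      intro i
      induction i with
      | zero => intro _; simp
      | succ i ih =>
        intro hi
        have h3 := ih (by omega)
        have h4 := ha (n + i)
        have h5 := heq i (by omega)
        have h6 : n + (i + 1) = n + i + 1 := by ring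
        rw [h6, h4, h3, h5]; ring
    obtain ⟨i, hi, hi2⟩ := hno n (g n) (hg1 n) hn
    exact hi2 (hap i (by omega))
  have hB : ∀ m, m * c + 1 ≤ N → m + 1 ≤ g (m * c) := by
    intro m
    induction m with
    | zero => intro _; simpa using hg1 0
    | succ m ih =>
      intro hm
      have h2 : (m + 1) * c = m * c + c := by ring
      rw [h2] at hm ⊢
      have h1 := hA (m * c) hm
      have h3 := ih (by omega)
      omega
  have hC : ∀ n, n + 1 ≤ N → n + 1 ≤ c * g n := by
    intro n hn
    have h0 : n / c * c ≤ n := Nat.div_mul_le_self n c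
    have h1 : g (n / c * c) ≤ g n := hgm h0
    have h2 := hB (n / c) (by omega)
    have h3 : n < c * (n / c + 1) := Nat.lt_mul_div_succ n (by omega)
    calc n + 1 ≤ c * (n / c + 1) := h3
      _ ≤ c * g n := Nat.mul_le_mul_left c (by omega)
  have hD : ∀ n, n ≤ N → 2 * c * a 0 + n * (n + 1) ≤ 2 * c * a n := by
    intro n
    induction n with
    | zero => intro _; simp
    | succ n ih =>
      intro hn
      have h1 := hC n hn
      have h2 := ha n
      have h3 := ih (by omega)
      rw [h2]
      nlinarith
  exact hD N le_rfl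

theorem result (a : ℕ → ℕ) (h0 : 0 < a 0) (hmono : StrictMono a)
    (hconv : ∀ n, a (n + 1) - a n ≤ a (n + 2) - a (n + 1)) :
    (∀ c N : ℕ, 1 ≤ c → 2 * c * a N < 2 * c * a 0 + N * (N + 1) →
        ∃ n d, 0 < d ∧ n + c + 1 ≤ N ∧ ∀ i < c + 2, a (n + i) = a n + i * d) ∧
    (¬ Summable (fun n => (1 : ℝ) / (a n : ℝ)) →
        ∀ k : ℕ, ∃ n d, 0 < d ∧ ∀ i < k, a (n + i) = a n + i * d) := by
  have hlt : ∀ n, a n < a (n + 1) := fun n => hmono (Nat.lt_succ_self n)
  constructor
  · intro c N hc hN
    by_contra hne
    have hno : ∀ n d, 0 < d → n + c + 1 ≤ N → ∃ i < c + 2, a (n + i) ≠ a n + i * d := by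
      intro n d hd hn
      by_contra hcon
      push Not at hcon
      exact hne ⟨n, d, hd, hn, hcon⟩
    have := growth a hmono hconv c N hc hno
    omega
  · intro hdiv k
    rcases Nat.lt_or_ge k 3 with hk | hk
    · refine ⟨0, a 1 - a 0, ?_, ?_⟩
      · have := hlt 0
        simp only [zero_add] at this
        omega
      · intro i hi
        have hi' : i = 0 ∨ i = 1 := by omega
        have := hlt 0
        simp only [zero_add] at this
        rcases hi' with rfl | rfl
        · simp
        · simp only [zero_add, one_mul]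
          omega
    by_contra hne
    obtain ⟨c, hc⟩ : ∃ c, k = c + 2 := ⟨k - 2, by omega⟩
    have hc1 : 1 ≤ c := by omega
    subst hc
    have hD : ∀ N, N * (N + 1) ≤ 2 * c * a N := by
      intro N
      have hno : ∀ n d, 0 < d → n + c + 1 ≤ N → ∃ i < c + 2, a (n + i) ≠ a n + i * d := by
        intro n d hd _
        by_contra hcon
        push Not at hcon
        exact hne ⟨n, d, hd, hcon⟩
      have := growth a hmono hconv c N hc1 hno
      omega
    -- summability
    have hs2 : Summable (fun n : ℕ => (2 * (c : ℝ)) * (1 / (((n + 1 : ℕ) : ℝ)) ^ 2)) := by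
      have h1 : Summable (fun n : ℕ => 1 / ((n : ℝ)) ^ 2) :=
        Real.summable_one_div_nat_pow.mpr (by norm_num)
      have h2 : Summable (fun n : ℕ => 1 / (((n + 1 : ℕ) : ℝ)) ^ 2) :=
        (summable_nat_add_iff 1).mpr h1
      exact h2.mul_left _
    have hs1 : Summable (fun n : ℕ => (1 : ℝ) / (a (n + 1) : ℝ)) := by
      refine Summable.of_nonneg_of_le (fun n => by positivity) (fun n => ?_) hs2
      have hpos : (0 : ℝ) < (a (n + 1) : ℝ) := by
        have := hlt n
        exact_mod_cast (by omega : 0 < a (n + 1))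
      have hnpos : (0 : ℝ) < (((n + 1 : ℕ) : ℝ)) ^ 2 := by positivity
      have hDn : (((n + 1 : ℕ) : ℝ)) ^ 2 ≤ 2 * (c : ℝ) * (a (n + 1) : ℝ) := by
        have h1 := hD (n + 1)
        have h2 : (n + 1) ^ 2 ≤ 2 * c * a (n + 1) := by nlinarith
        exact_mod_cast h2
      rw [div_le_iff₀ hpos]
      have h3 : 2 * (c : ℝ) * (1 / (((n + 1 : ℕ) : ℝ)) ^ 2) * (a (n + 1) : ℝ)
          = (2 * (c : ℝ) * (a (n + 1) : ℝ)) / (((n + 1 : ℕ) : ℝ)) ^ 2 := by
        field_simp
      rw [h3, le_div_iff₀ hnpos]
      linarith
    exact hdiv ((summable_nat_add_iff 1).mp hs1)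

end Vale.Agent.Results.P057.A_ConvexSequences
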