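import Vale.Agent.H29.P057.Window

/-!
# Erdős's conjecture on progressions for sets whose gap sequence has few descents

Let `a 0 < a 1 < a 2 < ...` be positive integers with gaps `g i = a (i+1) - a i`, and let `E n`
be the number of indices `i < n` with `g (i+1) < g i` (the descents of the gap sequence).

* Quantitative form: if `c ≥ 1` and `2 c (E N + 1) (a N - a 0) < N ^ 2` for some `N`, then some
  `c + 2` consecutive terms among `a 0, ..., a N` form an arithmetic progression.
* If the series of the `(E n + 1) / n ^ 2` converges and the sum of the reciprocals `1 / a n`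
  diverges, then for every `k` some `k` consecutive terms form an arithmetic progression with
  positive common difference; in particular the set of the `a n` contains a `k`-term
  arithmetic progression.
-/

namespace Vale.Agent.Results.P057.B_FewDescents

open Vale.Agent.H29.P057

theorem result (a : ℕ → ℕ) (h0 : 0 < a 0) (hmono : StrictMono a) (E : ℕ → ℕ)
    (hE : ∀ n, E n =
      ((Finset.range n).filter (fun i => a (i + 2) - a (i + 1) < a (i + 1) - a i)).card) :
    (∀ c N : ℕ, 1 ≤ c → 2 * c * (E N + 1) * a N < 2 * c * (E N + 1) * a 0 + N ^ 2 →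
        ∃ n d, 0 < d ∧ n + c + 1 ≤ N ∧ ∀ i < c + 2, a (n + i) = a n + i * d) ∧
    (Summable (fun n : ℕ => ((E n : ℝ) + 1) / (n : ℝ) ^ 2) →
      ¬ Summable (fun n => (1 : ℝ) / (a n : ℝ)) →
        ∀ k : ℕ, ∃ n d, 0 < d ∧ ∀ i < k, a (n + i) = a n + i * d) := by
  have hlt : ∀ n, a n < a (n + 1) := fun n => hmono (Nat.lt_succ_self n)
  have hle : ∀ i j, i ≤ j → a i ≤ a j := fun i j hij => hmono.monotone hij
  have hEs : ∀ M, E (M + 1) =
      E M + (if a (M + 2) - a (M + 1) < a (M + 1) - a M then 1 else 0) := by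
    intro M
    rw [hE (M + 1), hE M, Finset.range_add_one, Finset.filter_insert]
    split_ifs with h
    · rw [Finset.card_insert_of_notMem (by simp)]
    · simp
  have hEmono : ∀ M, E M ≤ E (M + 1) := fun M => by rw [hEs M]; omega
  constructor
  · intro c N hc hN
    by_contra hne
    have hno : ∀ n d, 0 < d → n + c + 1 ≤ N → ∃ i < c + 2, a (n + i) ≠ a n + i * d := by
      intro n d hd hn
      by_contra hcon
      push Not at hcon
      exact hne ⟨n, d, hd, hn, hcon⟩
    rcases Nat.eq_zero_or_pos N with hN0 | hN0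
    · subst hN0
      simp at hN
    · obtain ⟨M, rfl⟩ : ∃ M, N = M + 1 := ⟨N - 1, by omega⟩
      have hC := descent_bound a E hmono hEs c (M + 1) hc hno M le_rfl
      obtain ⟨y, hy⟩ : ∃ y, a (M + 1) = a 0 + y :=
        Nat.exists_eq_add_of_le (hle 0 (M + 1) (Nat.zero_le _))
      have h1 : 2 * c * (E M + 1) * y ≤ 2 * c * (E (M + 1) + 1) * y :=
        Nat.mul_le_mul_right y (Nat.mul_le_mul_left (2 * c) (by have := hEmono M; omega))
      rw [hy] at hC hN
      nlinarith
  · intro hsum hdiv k
    rcases Nat.lt_or_ge k 3 with hk | hk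
    · refine ⟨0, a 1 - a 0, ?_, ?_⟩
      · have := hlt 0
        simp only [zero_add] at this
        omega
      · intro i hi
        have hi' : i = 0 ∨ i = 1 := by omega
        have := hlt 0
        simp only [zero_add] at this
        rcases hi' with rfl | rfl
        · simp
        · simp only [zero_add, one_mul]
          omega
    by_contra hne
    obtain ⟨c, hc⟩ : ∃ c, k = c + 2 := ⟨k - 2, by omega⟩
    have hc1 : 1 ≤ c := by omega
    subst hc
    have hD : ∀ M, (M + 1) ^ 2 ≤ 2 * c * (E (M + 1) + 1) * a (M + 1) := by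
      intro M
      have hno : ∀ n d, 0 < d → n + c + 1 ≤ M + 1 →
          ∃ i < c + 2, a (n + i) ≠ a n + i * d := by
        intro n d hd _
        by_contra hcon
        push Not at hcon
        exact hne ⟨n, d, hd, hcon⟩
      have hC := descent_bound a E hmono hEs c (M + 1) hc1 hno M le_rfl
      have h1 : 2 * c * (E M + 1) * a (M + 1) ≤ 2 * c * (E (M + 1) + 1) * a (M + 1) :=
        Nat.mul_le_mul_right _ (Nat.mul_le_mul_left (2 * c) (by have := hEmono M; omega))
      omega
    -- summability
    have hs2 : Summable (fun n : ℕ =>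
        (2 * (c : ℝ)) * (((E (n + 1) : ℝ) + 1) / (((n + 1 : ℕ) : ℝ)) ^ 2)) := by
      have h2 : Summable (fun n : ℕ => ((E (n + 1) : ℝ) + 1) / (((n + 1 : ℕ) : ℝ)) ^ 2) :=
        (summable_nat_add_iff 1).mpr hsum
      exact h2.mul_left _
    have hs1 : Summable (fun n : ℕ => (1 : ℝ) / (a (n + 1) : ℝ)) := by
      refine Summable.of_nonneg_of_le (fun n => by positivity) (fun n => ?_) hs2
      have hpos : (0 : ℝ) < (a (n + 1) : ℝ) := by
        have := hlt n
        exact_mod_cast (by omega : 0 < a (n + 1))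
      have hnpos : (0 : ℝ) < (((n + 1 : ℕ) : ℝ)) ^ 2 := by positivity
      have hDn : (((n + 1 : ℕ) : ℝ)) ^ 2 ≤
          2 * (c : ℝ) * ((E (n + 1) : ℝ) + 1) * (a (n + 1) : ℝ) := by
        have h1 := hD n
        exact_mod_cast h1
      rw [div_le_iff₀ hpos]
      have h3 : 2 * (c : ℝ) * (((E (n + 1) : ℝ) + 1) / (((n + 1 : ℕ) : ℝ)) ^ 2) * (a (n + 1) : ℝ)
          = (2 * (c : ℝ) * ((E (n + 1) : ℝ) + 1) * (a (n + 1) : ℝ)) / (((n + 1 : ℕ) : ℝ)) ^ 2 := by
        field_simp
      rw [h3, le_div_iff₀ hnpos]
      linarith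
    exact hdiv ((summable_nat_add_iff 1).mp hs1)

end Vale.Agent.Results.P057.B_FewDescents
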